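import Vale.Agent.P235.H141.JDefs

/-!
# (WS), good splits: splitting a fibre of a 3-connected quotient

If both parts of the split fibre see two other fibres, the refined quotient is 3-connected.
-/

set_option autoImplicit false

namespace Vale.Agent.P235.H373

open SimpleGraph Vale.Agent.P235.H134 Vale.Agent.P235.H56

variable {V W : Type} {G : SimpleGraph V}

/-- The vertices with `g = c` see two fibres of `f` other than `w`. -/
def Sees2 (G : SimpleGraph V) (f : V → W) (g : V → Option W) (w : W) (c : Option W) : Prop :=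
  ∃ p q : W, p ≠ q ∧ p ≠ w ∧ q ≠ w ∧ (∃ x y, g x = c ∧ f y = p ∧ G.Adj x y) ∧
    (∃ x y, g x = c ∧ f y = q ∧ G.Adj x y)

section

variable {f : V → W} {g : V → Option W} {w : W}

lemma eq_some_of_ne (hg : ∀ v, (g v).getD w = f v) {v : V} (h : f v ≠ w) : g v = some (f v) := by
  have h1 := hg v
  cases hv : g v with
  | none =>
    rw [hv] at h1
    exact absurd h1.symm h
  | some u =>
    rw [hv] at h1
    rw [← h1]
    rfl

lemma f_of_some (hg : ∀ v, (g v).getD w = f v) {v : V} {u : W} (h : g v = some u) : f v = u := by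
  have h1 := hg v
  rw [h] at h1
  exact h1.symm

lemma f_of_none (hg : ∀ v, (g v).getD w = f v) {v : V} (h : g v = none) : f v = w := by
  have h1 := hg v
  rw [h] at h1
  exact h1.symm

/-- The general step: a set of vertices of the refined quotient which does not contain `none` and
`some w` and whose outer neighbours are among `s`, `t`, gives everything outside. -/
lemma step (hH : Conn3 (quot G f)) (hg : ∀ v, (g v).getD w = f v) {s t : Option W}
    {C : Set (Option W)} (hC : C.Nonempty) (hs : s ∉ C) (ht : t ∉ C) (ha : none ∉ C)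
    (hb : some w ∉ C)
    (hcl : ∀ u ∈ C, ∀ v, (quot G g).Adj u v → v ∈ C ∨ v = s ∨ v = t) (y : W) :
    some y ∈ C ∨ y = s.getD w ∨ y = t.getD w := by
  have key := hH (s.getD w) (t.getD w) {x | some x ∈ C} ?_ ?_ ?_ ?_ y
  · exact key
  · obtain ⟨c, hc⟩ := hC
    cases c with
    | none => exact absurd hc ha
    | some c => exact ⟨c, hc⟩
  · cases s with
    | none => exact hb
    | some s => exact hs
  · cases t with
    | none => exact hb
    | some t => exact ht
  · rintro u hu v ⟨huv, x, z, hx, hz, hxz⟩
    have huw : u ≠ w := fun h => hb (h ▸ hu)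
    have hgx : g x = some u := by
      rw [← hx]
      exact eq_some_of_ne hg (by rw [hx]; exact huw)
    have hne : some u ≠ g z := by
      intro h
      exact huv ((f_of_some hg h.symm).symm.trans hz)
    rcases hcl (some u) hu (g z) ⟨hne, x, z, hgx, rfl, hxz⟩ with h | h | h
    · left
      cases hgz : g z with
      | none => rw [hgz] at h; exact absurd h ha
      | some c =>
        rw [hgz] at h
        have := f_of_some hg hgz
        rw [hz] at this
        rw [this]
        exact h
    · right; left
      rw [← hz, ← hg z, h]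
    · right; right
      rw [← hz, ← hg z, h]

/-- The step for a set containing both `none` and `some w`. -/
lemma step2 (hH : Conn3 (quot G f)) (hg : ∀ v, (g v).getD w = f v) {s t : Option W}
    {C : Set (Option W)} (hs : s ∉ C) (ht : t ∉ C) (ha : none ∈ C) (hb : some w ∈ C)
    (hcl : ∀ u ∈ C, ∀ v, (quot G g).Adj u v → v ∈ C ∨ v = s ∨ v = t) (y : Option W) :
    y ∈ C ∨ y = s ∨ y = t := by
  cases y with
  | none => exact Or.inl ha
  | some y =>
    cases s with
    | none => exact absurd ha hs
    | some s =>
      cases t with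
      | none => exact absurd ha ht
      | some t =>
        have hin : ∀ z : V, g z ∈ C → some (f z) ∈ C := by
          intro z hz
          cases hgz : g z with
          | none =>
            rw [f_of_none hg hgz]
            exact hb
          | some c =>
            rw [f_of_some hg hgz, ← hgz]
            exact hz
        have hin' : ∀ z : V, some (f z) ∈ C → g z ∈ C := by
          intro z hz
          by_cases hw : f z = w
          · cases hgz : g z with
            | none => exact ha
            | some c =>
              rw [f_of_some hg hgz] at hw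
              rw [hw]
              exact hb
          · rw [eq_some_of_ne hg hw]
            exact hz
        have key := hH s t {x | some x ∈ C} ⟨w, hb⟩ hs ht ?_ y
        · rcases key with h | h | h
          · exact Or.inl h
          · exact Or.inr (Or.inl (congrArg some h))
          · exact Or.inr (Or.inr (congrArg some h))
        · rintro u hu v ⟨huv, x, z, hx, hz, hxz⟩
          have hgx : g x ∈ C := hin' x (by rw [hx]; exact hu)
          by_cases hne : g x = g z
          · left
            rw [← hz]
            exact hin z (hne ▸ hgx)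
          · rcases hcl (g x) hgx (g z) ⟨hne, x, z, rfl, rfl, hxz⟩ with h | h | h
            · left
              rw [← hz]
              exact hin z h
            · right; left
              rw [← hz]
              exact f_of_some hg h
            · right; right
              rw [← hz]
              exact f_of_some hg h

/-- A vertex all whose neighbours are the other part and one more vertex does not see two fibres. -/
lemma not_sees (hg : ∀ v, (g v).getD w = f v) {c t : Option W} (hc : c.getD w = w)
    (h : Sees2 G f g w c)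
    (hcl : ∀ v, (quot G g).Adj c v → v.getD w = w ∨ v = t) : False := by
  obtain ⟨p, q, hpq, hp, hq, ⟨x, y, hx, hy, hxy⟩, ⟨x', y', hx', hy', hxy'⟩⟩ := h
  have h1 : ∀ {x y : V} {r : W}, r ≠ w → g x = c → f y = r → G.Adj x y → some r = t := by
    intro x y r hr hx hy hxy
    have hgy : g y = some r := by
      rw [← hy]
      exact eq_some_of_ne hg (by rw [hy]; exact hr)
    have hne : c ≠ some r := by
      intro h'
      rw [h'] at hc
      exact hr hc
    rcases hcl (some r) ⟨hne, x, y, hx, hgy, hxy⟩ with h' | h'
    · exact absurd h' hr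
    · exact h'
  have h2 := h1 hp hx hy hxy
  have h3 := h1 hq hx' hy' hxy'
  exact hpq (Option.some_injective _ (h2.trans h3.symm))

/-- **Good splits.** -/
theorem good_split (hH : Conn3 (quot G f)) (hg : ∀ v, (g v).getD w = f v)
    (hab : (quot G g).Adj none (some w)) (ha : Sees2 G f g w none)
    (hb : Sees2 G f g w (some w)) : Conn3 (quot G g) := by
  classical
  intro s t C hC hs ht hcl y
  by_contra hy
  push Not at hy
  obtain ⟨hyC, hys, hyt⟩ := hy
  -- the complementary side
  set D : Set (Option W) := {x | x ∉ C ∧ x ≠ s ∧ x ≠ t} with hD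
  have hyD : y ∈ D := ⟨hyC, hys, hyt⟩
  have hsD : s ∉ D := fun h => h.2.1 rfl
  have htD : t ∉ D := fun h => h.2.2 rfl
  have hclD : ∀ u ∈ D, ∀ v, (quot G g).Adj u v → v ∈ D ∨ v = s ∨ v = t := by
    intro u hu v huv
    by_cases hvs : v = s
    · exact Or.inr (Or.inl hvs)
    by_cases hvt : v = t
    · exact Or.inr (Or.inr hvt)
    refine Or.inl ⟨fun hvC => ?_, hvs, hvt⟩
    rcases hcl v hvC u huv.symm with h | h | h
    · exact hu.1 h
    · exact hu.2.1 h
    · exact hu.2.2 h
  have hdisj : ∀ x, x ∈ C → x ∉ D := fun x hx h => h.1 hx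
  have htri : ∀ x, x ∈ C ∨ x ∈ D ∨ x = s ∨ x = t := by
    intro x
    by_cases h1 : x ∈ C
    · exact Or.inl h1
    by_cases h2 : x = s
    · exact Or.inr (Or.inr (Or.inl h2))
    by_cases h3 : x = t
    · exact Or.inr (Or.inr (Or.inr h3))
    · exact Or.inr (Or.inl ⟨h1, h2, h3⟩)
  -- the main case: one of the two parts is a separating vertex, the other one is not
  have main : ∀ (c c' : Option W), (c = none ∧ c' = some w ∨ c = some w ∧ c' = none) →
      ∀ (E F : Set (Option W)) (t : Option W), F.Nonempty → c ∉ E → t ∉ E → c ∉ F → t ∉ F →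
      (∀ x, x ∈ E → x ∉ F) → c' ∈ E →
      (∀ u ∈ E, ∀ v, (quot G g).Adj u v → v ∈ E ∨ v = c ∨ v = t) →
      (∀ u ∈ F, ∀ v, (quot G g).Adj u v → v ∈ F ∨ v = c ∨ v = t) → False := by
    intro c c' hcc E F t hF hcE htE hcF htF hEF hc'E hclE hclF
    have hc'F : c' ∉ F := hEF c' hc'E
    have hnF : none ∉ F := by
      rcases hcc with ⟨h1, h2⟩ | ⟨h1, h2⟩
      · rw [← h1]; exact hcF
      · rw [← h2]; exact hc'F
    have hwF : some w ∉ F := by
      rcases hcc with ⟨h1, h2⟩ | ⟨h1, h2⟩
      · rw [← h2]; exact hc'F
      · rw [← h1]; exact hcF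
    have hcw : c.getD w = w := by
      rcases hcc with ⟨h1, h2⟩ | ⟨h1, h2⟩ <;> rw [h1] <;> rfl
    have hc'w : c'.getD w = w := by
      rcases hcc with ⟨h1, h2⟩ | ⟨h1, h2⟩ <;> rw [h2] <;> rfl
    have hsee : Sees2 G f g w c' := by
      rcases hcc with ⟨h1, h2⟩ | ⟨h1, h2⟩ <;> rw [h2] <;> assumption
    have hall := step hH hg hF hcF htF hnF hwF hclF
    refine not_sees hg (t := t) hc'w hsee ?_
    intro v hv
    rcases hclE c' hc'E v hv with h | h | h
    · left
      cases v with
      | none => rfl
      | some v =>
        rcases hall v with h' | h' | h'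
        · exact absurd h' (hEF _ h)
        · rw [hcw] at h'
          exact h'
        · by_contra hvw
          cases t with
          | none => exact hvw h'
          | some t => exact htE (by rw [← (show v = t from h')]; exact h)
    · left
      rw [h, hcw]
    · right
      exact h
  have hsD' : ∀ c, c = s ∨ c = t → c ∉ C ∧ c ∉ D := by
    rintro c (h | h)
    · rw [h]; exact ⟨hs, hsD⟩
    · rw [h]; exact ⟨ht, htD⟩
  -- `c` is `s` or `t`, and `c'` is in `C` or in `D`
  have main2 : ∀ (c c' : Option W), (c = none ∧ c' = some w ∨ c = some w ∧ c' = none) →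
      (c = s ∨ c = t) → (c' ∈ C ∨ c' ∈ D) → False := by
    intro c c' hcc hc hc'
    obtain ⟨t', ht'C, ht'D, hst⟩ : ∃ t', t' ∉ C ∧ t' ∉ D ∧ ∀ v, (v = s ∨ v = t) → v = c ∨ v = t' := by
      rcases hc with h | h
      · exact ⟨t, ht, htD, fun v hv => by rw [h]; exact hv⟩
      · exact ⟨s, hs, hsD, fun v hv => by rw [h]; exact hv.symm⟩
    obtain ⟨hcC, hcD⟩ := hsD' c hc
    rcases hc' with h | h
    · exact main c c' hcc C D t' ⟨y, hyD⟩ hcC ht'C hcD ht'D hdisj h
        (fun u hu v huv => (hcl u hu v huv).imp_right (hst v))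
        (fun u hu v huv => (hclD u hu v huv).imp_right (hst v))
    · exact main c c' hcc D C t' hC hcD ht'D hcC ht'C (fun x hx h' => hdisj x h' hx) h
        (fun u hu v huv => (hclD u hu v huv).imp_right (hst v))
        (fun u hu v huv => (hcl u hu v huv).imp_right (hst v))
  rcases htri none with h1 | h1 | h1
  · rcases htri (some w) with h2 | h2 | h2
    · -- both in `C`
      rcases step2 hH hg hs ht h1 h2 hcl y with h | h | h
      · exact hyC h
      · exact hys h
      · exact hyt h
    · rcases hcl none h1 (some w) hab with h | h | h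
      · exact hdisj _ h h2
      · exact hsD (h ▸ h2)
      · exact htD (h ▸ h2)
    · exact main2 (some w) none (Or.inr ⟨rfl, rfl⟩) h2 (Or.inl h1)
  · rcases htri (some w) with h2 | h2 | h2
    · rcases hcl (some w) h2 none hab.symm with h | h | h
      · exact hdisj _ h h1
      · exact hsD (h ▸ h1)
      · exact htD (h ▸ h1)
    · -- both in `D`
      obtain ⟨c, hc⟩ := hC
      rcases step2 hH hg hsD htD h1 h2 hclD c with h | h | h
      · exact hdisj c hc h
      · exact hs (h ▸ hc)
      · exact ht (h ▸ hc)
    · exact main2 (some w) none (Or.inr ⟨rfl, rfl⟩) h2 (Or.inr h1)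
  · rcases htri (some w) with h2 | h2 | h2
    · exact main2 none (some w) (Or.inl ⟨rfl, rfl⟩) h1 (Or.inl h2)
    · exact main2 none (some w) (Or.inl ⟨rfl, rfl⟩) h1 (Or.inr h2)
    · -- both separating
      have hnC : none ∉ C := (hsD' none h1).1
      have hwC : some w ∉ C := (hsD' (some w) h2).1
      have hs' : s.getD w = w := by
        rcases h1 with h | h
        · rw [← h]; rfl
        · rcases h2 with h' | h'
          · rw [← h']; rfl
          · exact absurd (h.trans h'.symm) (by simp)
      have ht' : t.getD w = w := by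
        rcases h1 with h | h
        · rcases h2 with h' | h'
          · exact absurd (h.trans h'.symm) (by simp)
          · rw [← h']; rfl
        · rw [← h]; rfl
      have hnD : none ∉ D := (hsD' none h1).2
      cases y with
      | none => exact hnD hyD
      | some y =>
        rcases step hH hg hC hs ht hnC hwC hcl y with h | h | h
        · exact hyC h
        · rw [hs'] at h
          exact (hsD' (some w) h2).2 (h ▸ hyD)
        · rw [ht'] at h
          exact (hsD' (some w) h2).2 (h ▸ hyD)

/-- Contracting back. -/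
theorem quot_quot (hg : ∀ v, (g v).getD w = f v) :
    quot (quot G g) (fun x => x.getD w) = quot G f := by
  ext p q
  constructor
  · rintro ⟨hpq, x, y, hx, hy, -, v, v', hv, hv', hvv⟩
    refine ⟨hpq, v, v', ?_, ?_, hvv⟩
    · rw [← hg, hv]; exact hx
    · rw [← hg, hv']; exact hy
  · rintro ⟨hpq, v, v', hv, hv', hvv⟩
    refine ⟨hpq, g v, g v', (hg v).trans hv, (hg v').trans hv', ?_, v, v', rfl, rfl, hvv⟩
    intro h
    apply hpq
    rw [← hv, ← hv', ← hg v, ← hg v', h]

/-- The two parts of a connected fibre are adjacent. -/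
theorem adj_parts (hg : ∀ v, (g v).getD w = f v) (hB : (G.induce {v | f v = w}).Connected)
    (hX : ∃ x, g x = none) (hY : ∃ y, g y = some w) : (quot G g).Adj none (some w) := by
  obtain ⟨x, hx⟩ := hX
  obtain ⟨y, hy⟩ := hY
  have hxB : x ∈ {v | f v = w} := f_of_none hg hx
  have hyB : y ∈ {v | f v = w} := f_of_some hg hy
  obtain ⟨p⟩ := hB.preconnected ⟨x, hxB⟩ ⟨y, hyB⟩
  obtain ⟨d, -, hd1, hd2⟩ := p.exists_boundary_dart {v | g v.1 = none} hx (by
    change ¬ g y = none
    rw [hy]
    simp)
  have h1 : g d.fst.1 = none := hd1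
  have h2 : g d.snd.1 = some w := by
    cases hgd : g d.snd.1 with
    | none => exact absurd hgd hd2
    | some c =>
      have h3 := f_of_some hg hgd
      have h4 : f d.snd.1 = w := d.snd.2
      rw [h4] at h3
      rw [h3]
  exact ⟨by simp, d.fst.1, d.snd.1, h1, h2, d.adj⟩

/-- **Good splits**, in the form of `RefineStmt`. -/
theorem refine_good (hH : Conn3 (quot G f)) (hfib : ∀ x, (G.induce {v | f v = x}).Connected)
    (hg : ∀ v, (g v).getD w = f v) (hX : (G.induce {v | g v = none}).Connected)
    (hY : (G.induce {v | g v = some w}).Connected)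
    (sX : ∃ p q : W, p ≠ q ∧ p ≠ w ∧ q ≠ w ∧
      (∃ x ∈ {v | g v = none}, ∃ y, G.Adj x y ∧ f y = p) ∧
      (∃ x ∈ {v | g v = none}, ∃ y, G.Adj x y ∧ f y = q))
    (sY : ∃ p q : W, p ≠ q ∧ p ≠ w ∧ q ≠ w ∧
      (∃ x ∈ {v | g v = some w}, ∃ y, G.Adj x y ∧ f y = p) ∧
      (∃ x ∈ {v | g v = some w}, ∃ y, G.Adj x y ∧ f y = q)) :
    (∀ x, (G.induce {v | g v = x}).Connected) ∧ Conn3 (quot G g) ∧
      (quot G g).Adj none (some w) ∧ quot (quot G g) (fun x => x.getD w) = quot G f := by
  have hnX : ∃ x, g x = none := by
    obtain ⟨⟨x, hx⟩⟩ := hX.nonempty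
    exact ⟨x, hx⟩
  have hnY : ∃ y, g y = some w := by
    obtain ⟨⟨y, hy⟩⟩ := hY.nonempty
    exact ⟨y, hy⟩
  have hab := adj_parts hg (hfib w) hnX hnY
  refine ⟨fun x => ?_, good_split hH hg hab ?_ ?_, hab, quot_quot hg⟩
  · cases x with
    | none => exact hX
    | some x =>
      by_cases hxw : x = w
      · rw [hxw]; exact hY
      · have hset : {v | g v = some x} = {v | f v = x} := by
          ext v
          constructor
          · intro h
            exact f_of_some hg h
          · intro h
            have h' : f v = x := h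
            change g v = some x
            rw [← h']
            exact eq_some_of_ne hg (by rw [h']; exact hxw)
        rw [hset]
        exact hfib x
  · obtain ⟨p, q, h1, h2, h3, ⟨x, hx, y, hxy, hy⟩, ⟨x', hx', y', hxy', hy'⟩⟩ := sX
    exact ⟨p, q, h1, h2, h3, ⟨x, y, hx, hy, hxy⟩, ⟨x', y', hx', hy', hxy'⟩⟩
  · obtain ⟨p, q, h1, h2, h3, ⟨x, hx, y, hxy, hy⟩, ⟨x', hx', y', hxy', hy'⟩⟩ := sY
    exact ⟨p, q, h1, h2, h3, ⟨x, y, hx, hy, hxy⟩, ⟨x', y', hx', hy', hxy'⟩⟩

end

end Vale.Agent.P235.H373
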