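import Vale.Agent.P235.H141.JDefs

/-!
# Splitting a connected set between two of its vertices
-/

set_option autoImplicit false

namespace Vale.Agent.P235.H373

open SimpleGraph

variable {V : Type} {G : SimpleGraph V}

/-- A connected set with two vertices `s ≠ t` splits into two connected sets, one containing `s`,
the other one containing `t`. -/
theorem exists_split {Y : Set V} (hY : (G.induce Y).Connected) {s t : V} (hs : s ∈ Y) (ht : t ∈ Y)
    (hst : s ≠ t) : ∃ Y₁ Y₂ : Set V, Y₁ ∪ Y₂ = Y ∧ Disjoint Y₁ Y₂ ∧ s ∈ Y₁ ∧ t ∈ Y₂ ∧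
      (G.induce Y₁).Connected ∧ (G.induce Y₂).Connected := by
  classical
  have htZ : t ∈ Y \ {s} := ⟨ht, fun h => hst h.symm⟩
  let H := G.induce (Y \ {s})
  let Y₂ : Set V := {v | ∃ h : v ∈ Y \ {s}, H.Reachable ⟨t, htZ⟩ ⟨v, h⟩}
  have hY₂Y : Y₂ ⊆ Y := fun v ⟨h, _⟩ => h.1
  have hsY₂ : s ∉ Y₂ := fun ⟨h, _⟩ => h.2 rfl
  refine ⟨Y \ Y₂, Y₂, Set.sdiff_union_of_subset hY₂Y, Set.disjoint_sdiff_left, ⟨hs, hsY₂⟩,
    ⟨htZ, Reachable.refl _⟩, ?_, ?_⟩
  · -- everything reaches `s`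
    have key : ∀ (a b : Y) (_ : (G.induce Y).Walk a b) (hb : b.1 = s) (ha : a.1 ∉ Y₂),
        (G.induce (Y \ Y₂)).Reachable ⟨a.1, a.2, ha⟩ ⟨s, hs, hsY₂⟩ := by
      intro a b p
      induction p with
      | nil =>
        intro hb ha
        have : (⟨_, Subtype.property _, ha⟩ : (Y \ Y₂ : Set V)) = ⟨s, hs, hsY₂⟩ := Subtype.ext hb
        rw [this]
      | @cons a c b hac p ih =>
        intro hb ha
        by_cases hcs : c.1 = s
        · have hadj : (G.induce (Y \ Y₂)).Adj ⟨a.1, a.2, ha⟩ ⟨s, hs, hsY₂⟩ := by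
            change G.Adj a.1 s
            rw [← hcs]
            exact hac
          exact hadj.reachable
        · by_cases has : a.1 = s
          · have : (⟨a.1, a.2, ha⟩ : (Y \ Y₂ : Set V)) = ⟨s, hs, hsY₂⟩ := Subtype.ext has
            rw [this]
          · have hc : c.1 ∉ Y₂ := by
              rintro ⟨h1, h2⟩
              apply ha
              refine ⟨⟨a.2, has⟩, h2.trans ?_⟩
              have hadj : H.Adj ⟨c.1, h1⟩ ⟨a.1, a.2, has⟩ := by
                change G.Adj c.1 a.1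
                exact hac.symm
              exact hadj.reachable
            have hadj : (G.induce (Y \ Y₂)).Adj ⟨a.1, a.2, ha⟩ ⟨c.1, c.2, hc⟩ := hac
            exact hadj.reachable.trans (ih hb hc)
    have : Nonempty (Y \ Y₂ : Set V) := ⟨⟨s, hs, hsY₂⟩⟩
    refine ⟨fun a b => ?_⟩
    have h : ∀ a : (Y \ Y₂ : Set V), (G.induce (Y \ Y₂)).Reachable a ⟨s, hs, hsY₂⟩ := by
      intro a
      obtain ⟨p⟩ := hY.preconnected ⟨a.1, a.2.1⟩ ⟨s, hs⟩
      exact key _ _ p rfl a.2.2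
    exact (h a).trans (h b).symm
  · have key : ∀ (a b : (Y \ {s} : Set V)) (_ : H.Walk a b)
        (ha : a.1 ∈ Y₂) (hb : b.1 ∈ Y₂), (G.induce Y₂).Reachable ⟨a.1, ha⟩ ⟨b.1, hb⟩ := by
      intro a b p
      induction p with
      | nil =>
        intro ha hb
        exact Reachable.refl _
      | @cons a c b hac p ih =>
        intro ha hb
        have hc : c.1 ∈ Y₂ := by
          obtain ⟨h1, h2⟩ := ha
          exact ⟨c.2, h2.trans hac.reachable⟩
        have hadj : (G.induce Y₂).Adj ⟨a.1, ha⟩ ⟨c.1, hc⟩ := hac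
        exact hadj.reachable.trans (ih hc hb)
    have : Nonempty Y₂ := ⟨⟨t, htZ, Reachable.refl _⟩⟩
    refine ⟨fun a b => ?_⟩
    obtain ⟨a, ha⟩ := a
    obtain ⟨b, hb⟩ := b
    obtain ⟨ha1, ha2⟩ := ha
    obtain ⟨hb1, hb2⟩ := hb
    obtain ⟨p⟩ := ha2.symm.trans hb2
    exact key _ _ p ⟨ha1, ha2⟩ ⟨hb1, hb2⟩

end Vale.Agent.P235.H373
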